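import Vale.Agent.P052.Gram
import Vale.Agent.P052.Clique

namespace Vale.Agent.Results.P052.Dim63

open Vale.Agent.P052

theorem NN_low (i j : ℕ) (h : i < 320 ∨ j < 320) (hij : i ≠ j) :
    (NN i j : ℝ) = if adj i j = true then 6 else 2 := by
  have e : NN i j = (cond (adj i j) 4 0) + (cond (Nat.beq i j) 16 0) +
    (cond (Nat.ble 320 i && Nat.ble 320 j)
      (cond (Nat.beq (Nat.div i 32) (Nat.div j 32)) 0 3) 2) := rfl
  have h1 : Nat.beq i j = false := by
    cases hb : Nat.beq i j
    · rfl
    · exact absurd (Nat.eq_of_beq_eq_true hb) hij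
  have h2 : (Nat.ble 320 i && Nat.ble 320 j) = false := by
    cases hb : (Nat.ble 320 i && Nat.ble 320 j)
    · rfl
    · rw [Bool.and_eq_true] at hb
      have a := Nat.le_of_ble_eq_true hb.1
      have b := Nat.le_of_ble_eq_true hb.2
      omega
  rw [e, h1, h2]
  cases adj i j <;> simp

theorem NN_diag (i : ℕ) (h : i < 320) : (NN i i : ℝ) = 18 := by
  have e : NN i i = (cond (adj i i) 4 0) + (cond (Nat.beq i i) 16 0) +
    (cond (Nat.ble 320 i && Nat.ble 320 i)
      (cond (Nat.beq (Nat.div i 32) (Nat.div i 32)) 0 3) 2) := rfl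
  have h2 : Nat.ble 320 i = false := by
    cases hb : Nat.ble 320 i
    · rfl
    · have a := Nat.le_of_ble_eq_true hb
      omega
  rw [e, h2, adj_irr i (by omega), Nat.beq_refl]
  simp

theorem NN_diag' (i : ℕ) (h : i = 320) : (NN i i : ℝ) = 16 := by
  have e : NN i i = (cond (adj i i) 4 0) + (cond (Nat.beq i i) 16 0) +
    (cond (Nat.ble 320 i && Nat.ble 320 i)
      (cond (Nat.beq (Nat.div i 32) (Nat.div i 32)) 0 3) 2) := rfl
  have h2 : Nat.ble 320 i = true := by rw [h]; rfl
  rw [e, h2, adj_irr i (by omega), Nat.beq_refl, Nat.beq_refl]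
  simp

theorem exists_points : ∃ p : Fin 321 → EuclideanSpace ℝ (Fin 63),
    (∀ i j, i ≠ j → dist (p i) (p j) ^ 2 ≤ 3072 ∧ (dist (p i) (p j) ^ 2 < 3072 → adj i j = true)) ∧
      0 < dist (p 0) (p 1) := by
  obtain ⟨q, hq⟩ := exists_vectors
  obtain ⟨t, ht0, ht⟩ : ∃ t : ℝ, 0 < t ∧ 13 * t ^ 2 + 2 * t = 17 := by
    have hs : Real.sqrt 222 ^ 2 = 222 := Real.sq_sqrt (by norm_num)
    have h1 : 1 < Real.sqrt 222 := by
      rw [Real.lt_sqrt (by norm_num)]; norm_num
    refine ⟨(Real.sqrt 222 - 1) / 13, by linarith [div_pos (sub_pos.mpr h1) (by norm_num : (0:ℝ) < 13)], ?_⟩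
    nlinarith
  obtain ⟨c, hc⟩ : ∃ c : Fin 321 → ℝ, c = fun i => if i.val = 320 then t else 1 := ⟨_, rfl⟩
  obtain ⟨e, he⟩ : ∃ e : Fin 321 → Fin 416, ∀ i, (e i).val = i.val :=
    ⟨fun i => ⟨i.val, by omega⟩, fun _ => rfl⟩
  have hd : ∀ i j, dist (c i • q (e i)) (c j • q (e j)) ^ 2 =
      96 * (c i ^ 2 * ((NN i i : ℝ) - 3) + c j ^ 2 * ((NN j j : ℝ) - 3)
        - 2 * c i * c j * ((NN i j : ℝ) - 3)) := by
    intro i j
    rw [dist_eq_norm, ← real_inner_self_eq_norm_sq, real_inner_sub_sub_self]
    simp only [real_inner_smul_left, real_inner_smul_right, hq, he]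
    ring
  refine ⟨fun i => c i • q (e i), ?_, ?_⟩
  · intro i j hij
    have hij' : i.val ≠ j.val := fun h => hij (Fin.ext h)
    have hi := i.2
    have hj := j.2
    rw [hd, NN_low i j (by omega) hij']
    by_cases h1 : i.val = 320
    · have h2 : j.val ≠ 320 := by omega
      rw [NN_diag' i h1, NN_diag j (by omega)]
      simp only [hc, h1, h2, if_true, if_false]
      by_cases ha : adj 320 j = true
      · simp only [ha, if_true]
        exact ⟨by nlinarith, fun _ => trivial⟩
      · simp only [ha]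
        refine ⟨by simp only [Bool.false_eq_true, if_false]; nlinarith, fun h => ?_⟩
        simp only [Bool.false_eq_true, if_false] at h
        exfalso; nlinarith
    · by_cases h2 : j.val = 320
      · rw [NN_diag' j h2, NN_diag i (by omega)]
        simp only [hc, h1, h2, if_true, if_false]
        by_cases ha : adj i 320 = true
        · simp only [ha, if_true]
          exact ⟨by nlinarith, fun _ => trivial⟩
        · simp only [ha]
          refine ⟨by simp only [Bool.false_eq_true, if_false]; nlinarith, fun h => ?_⟩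
          simp only [Bool.false_eq_true, if_false] at h
          exfalso; nlinarith
      · rw [NN_diag j (by omega), NN_diag i (by omega)]
        simp only [hc, h1, h2, if_false]
        by_cases ha : adj i j = true
        · simp only [ha, if_true]
          exact ⟨by norm_num, fun _ => trivial⟩
        · simp only [ha]
          refine ⟨by simp only [Bool.false_eq_true, if_false]; norm_num, fun h => ?_⟩
          simp only [Bool.false_eq_true, if_false] at h
          exfalso; norm_num at h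
  · have h := hd 0 1
    have z0 : ((0 : Fin 321) : ℕ) = 0 := rfl
    have z1 : ((1 : Fin 321) : ℕ) = 1 := rfl
    have c0 : c 0 = 1 := by rw [hc]; simp
    have c1 : c 1 = 1 := by rw [hc]; simp [z1]
    rw [z0, z1, NN_diag 0 (by omega), NN_diag 1 (by omega), NN_low 0 1 (by omega) (by omega)] at h
    have hn : 0 ≤ dist (c 0 • q (e 0)) (c 1 • q (e 1)) := dist_nonneg
    rcases hn.lt_or_eq with h' | h'
    · exact h'
    · exfalso
      rw [← h', c0, c1] at h
      split_ifs at h <;> norm_num at h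

theorem result : ∃ Y : Set (EuclideanSpace ℝ (Fin 63)),
    Bornology.IsBounded Y ∧ 0 < Metric.diam Y ∧
      ¬ ∃ P : Fin 64 → Set (EuclideanSpace ℝ (Fin 63)),
        Y = ⋃ k, P k ∧ ∀ k, Metric.diam (P k) < Metric.diam Y := by
  obtain ⟨p, hp, hpos⟩ := exists_points
  have hb : Bornology.IsBounded (Set.range p) := (Set.finite_range p).isBounded
  have hD : Metric.diam (Set.range p) ≤ Real.sqrt 3072 := by
    refine Metric.diam_le_of_forall_dist_le (Real.sqrt_nonneg _) ?_
    rintro _ ⟨i, rfl⟩ _ ⟨j, rfl⟩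
    by_cases hij : i = j
    · rw [hij, dist_self]; exact Real.sqrt_nonneg _
    · exact Real.le_sqrt_of_sq_le (hp i j hij).1
  refine ⟨Set.range p, hb, ?_, ?_⟩
  · exact lt_of_lt_of_le hpos (Metric.dist_le_diam_of_mem hb ⟨0, rfl⟩ ⟨1, rfl⟩)
  · rintro ⟨P, hP, hlt⟩
    have hsub : ∀ k, P k ⊆ Set.range p := fun k => by rw [hP]; exact Set.subset_iUnion P k
    have hex : ∀ i, ∃ k, p i ∈ P k := fun i => by
      have : p i ∈ Set.range p := ⟨i, rfl⟩
      rw [hP] at this
      exact Set.mem_iUnion.mp this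
    choose f hf using hex
    obtain ⟨k, hk⟩ := Fintype.exists_lt_card_fiber_of_mul_lt_card f (n := 5)
      (by rw [Fintype.card_fin, Fintype.card_fin]; norm_num)
    obtain ⟨T, hT, hT6⟩ := Finset.exists_subset_card_eq (n := 6) (Nat.succ_le_of_lt hk)
    refine no_six (T.map Fin.valEmbedding) (by rw [Finset.card_map, hT6]) ?_ ?_
    · intro u hu
      obtain ⟨i, -, rfl⟩ := Finset.mem_map.mp hu
      exact i.2
    · intro u hu w hw huw
      obtain ⟨i, hi, rfl⟩ := Finset.mem_map.mp hu
      obtain ⟨j, hj, rfl⟩ := Finset.mem_map.mp hw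
      have hij : i ≠ j := fun h => huw (by rw [h])
      have fi : f i = k := (Finset.mem_filter.mp (hT hi)).2
      have fj : f j = k := (Finset.mem_filter.mp (hT hj)).2
      have h1 : dist (p i) (p j) ≤ Metric.diam (P k) :=
        Metric.dist_le_diam_of_mem (hb.subset (hsub k)) (fi ▸ hf i) (fj ▸ hf j)
      have h2 : dist (p i) (p j) < Real.sqrt 3072 := lt_of_le_of_lt h1 (lt_of_lt_of_le (hlt k) hD)
      exact (hp i j hij).2 ((Real.lt_sqrt dist_nonneg).mp h2)

end Vale.Agent.Results.P052.Dim63
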